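import Vale.Agent.P229.Profile
open scoped ContDiff
open Set Real

namespace Vale.Agent.Results.P229.KillingInvariant

/-- The metric `g11 dx^2 + 2 g12 dx dy + g22 dy^2` is locally smoothly realizable at `p`:
some open neighbourhood `U` of `p` carries a smooth map `Φ` into Euclidean three-space whose
partial derivatives satisfy `<Φ_i, Φ_j> = g_ij` on `U`. -/
def LocallySmoothlyRealizableAt (g11 g12 g22 : ℝ × ℝ → ℝ) (p : ℝ × ℝ) : Prop :=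
  ∃ U : Set (ℝ × ℝ), IsOpen U ∧ p ∈ U ∧ ∃ Φ : ℝ × ℝ → EuclideanSpace ℝ (Fin 3),
    ContDiffOn ℝ ∞ Φ U ∧ ∀ q ∈ U,
      inner ℝ (fderiv ℝ Φ q (1, 0)) (fderiv ℝ Φ q (1, 0)) = g11 q ∧
      inner ℝ (fderiv ℝ Φ q (1, 0)) (fderiv ℝ Φ q (0, 1)) = g12 q ∧
      inner ℝ (fderiv ℝ Φ q (0, 1)) (fderiv ℝ Φ q (0, 1)) = g22 q

/-- Every smooth positive definite metric on an open subset of the plane whose coefficients
do not depend on the second coordinate is locally smoothly realizable at every point;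
nothing is assumed about the Gaussian curvature. -/
theorem result (Ω : Set (ℝ × ℝ)) (hΩ : IsOpen Ω) (g11 g12 g22 : ℝ × ℝ → ℝ)
    (h11 : ContDiffOn ℝ ∞ g11 Ω) (h12 : ContDiffOn ℝ ∞ g12 Ω) (h22 : ContDiffOn ℝ ∞ g22 Ω)
    (hpos : ∀ q ∈ Ω, 0 < g11 q ∧ 0 < g11 q * g22 q - g12 q ^ 2)
    (hinv : ∀ q ∈ Ω, ∀ q' ∈ Ω, q.1 = q'.1 →
      g11 q = g11 q' ∧ g12 q = g12 q' ∧ g22 q = g22 q') :
    ∀ p ∈ Ω, LocallySmoothlyRealizableAt g11 g12 g22 p := by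
  intro p hp
  obtain ⟨u, v, hu, hv, hpu, hpv, huv⟩ := isOpen_prod_iff.1 hΩ p.1 p.2 hp
  have hline : ∀ x ∈ u, ((x, p.2) : ℝ × ℝ) ∈ Ω := fun x hx => huv ⟨hx, hpv⟩
  have hcurve : ContDiffOn ℝ ∞ (fun x : ℝ => ((x, p.2) : ℝ × ℝ)) u :=
    (contDiff_id.prodMk contDiff_const).contDiffOn
  have hE : ContDiffOn ℝ ∞ (fun x => g11 (x, p.2)) u := h11.comp hcurve hline
  have hF : ContDiffOn ℝ ∞ (fun x => g12 (x, p.2)) u := h12.comp hcurve hline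
  have hG : ContDiffOn ℝ ∞ (fun x => g22 (x, p.2)) u := h22.comp hcurve hline
  obtain ⟨δ, R, θ, h, R', θ', h', κ, hδ, hJu, hR, hθ, hh, hall⟩ :=
    Vale.Agent.P229.exists_profile hu hpu hE hF hG (fun x hx => hpos _ (hline x hx))
  refine ⟨Ioo (p.1 - δ) (p.1 + δ) ×ˢ v, isOpen_Ioo.prod hv,
    ⟨⟨by linarith, by linarith⟩, hpv⟩, Vale.Agent.P229.surf R θ h κ,
    (Vale.Agent.P229.surf_contDiffOn hR hθ hh).mono (prod_mono_right (subset_univ v)), ?_⟩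
  intro q hq
  obtain ⟨dR, dθ, dh, i1, i2, i3⟩ := hall q.1 hq.1
  obtain ⟨e1, e2, e3⟩ := Vale.Agent.P229.surf_partials (κ := κ) isOpen_Ioo hR hθ hh hq.1 dR dθ dh
  have hqΩ : q ∈ Ω := huv ⟨hJu hq.1, hq.2⟩
  obtain ⟨j1, j2, j3⟩ := hinv q hqΩ (q.1, p.2) (hline q.1 (hJu hq.1)) rfl
  exact ⟨by rw [e1, i1, j1], by rw [e2, i2, j2], by rw [e3, i3, j3]⟩

end Vale.Agent.Results.P229.KillingInvariant
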