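import Vale.Agent.P229.Molding
open scoped ContDiff
open Set Real

namespace Vale.Agent.Results.P229.MoldingClass

/-- The metric `g11 dx^2 + 2 g12 dx dy + g22 dy^2` is locally smoothly realizable at `p`:
some open neighbourhood `U` of `p` carries a smooth map `Φ` into Euclidean three-space whose
partial derivatives satisfy `<Φ_i, Φ_j> = g_ij` on `U`. -/
def LocallySmoothlyRealizableAt (g11 g12 g22 : ℝ × ℝ → ℝ) (p : ℝ × ℝ) : Prop :=
  ∃ U : Set (ℝ × ℝ), IsOpen U ∧ p ∈ U ∧ ∃ Φ : ℝ × ℝ → EuclideanSpace ℝ (Fin 3),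
    ContDiffOn ℝ ∞ Φ U ∧ ∀ q ∈ U,
      inner ℝ (fderiv ℝ Φ q (1, 0)) (fderiv ℝ Φ q (1, 0)) = g11 q ∧
      inner ℝ (fderiv ℝ Φ q (1, 0)) (fderiv ℝ Φ q (0, 1)) = g12 q ∧
      inner ℝ (fderiv ℝ Φ q (0, 1)) (fderiv ℝ Φ q (0, 1)) = g22 q

/-- Every smooth metric of the form `E(x) dx^2 + (v(y) + ρ(x) w(y))^2 dy^2` on a product of two
open sets is locally smoothly realizable at every point. -/
theorem result (I J : Set ℝ) (hI : IsOpen I) (hJ : IsOpen J) (E ρ v w : ℝ → ℝ)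
    (hE : ContDiffOn ℝ ∞ E I) (hρ : ContDiffOn ℝ ∞ ρ I)
    (hv : ContDiffOn ℝ ∞ v J) (hw : ContDiffOn ℝ ∞ w J)
    (hEpos : ∀ x ∈ I, 0 < E x) (_hB : ∀ x ∈ I, ∀ y ∈ J, v y + ρ x * w y ≠ 0) :
    ∀ p ∈ I ×ˢ J, LocallySmoothlyRealizableAt (fun q => E q.1) (fun _ => 0)
      (fun q => (v q.2 + ρ q.1 * w q.2) ^ 2) p := by
  intro p hp
  obtain ⟨hp1, hp2⟩ := hp
  -- the x-part
  have hdρs : ContDiffOn ℝ ∞ (deriv ρ) I := hρ.deriv_of_isOpen hI (by simp)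
  have hρd : ∀ x ∈ I, HasDerivAt ρ (deriv ρ x) x := fun x hx =>
    ((hρ.contDiffAt (hI.mem_nhds hx)).differentiableAt (by simp)).hasDerivAt
  set M : ℝ := (deriv ρ p.1) ^ 2 with hM
  have hM0 : 0 ≤ M := sq_nonneg _
  set a : ℝ := min 1 (E p.1 / (M + 1)) with ha
  have ha0 : 0 < a := lt_min one_pos (div_pos (hEpos p.1 hp1) (by positivity))
  have ha1 : a ≤ 1 := min_le_left _ _
  have ha2 : a ≤ E p.1 / (M + 1) := min_le_right _ _
  have haM : a ^ 2 * M < E p.1 := by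
    have h1 : a ^ 2 * M ≤ a * M := by
      have : a ^ 2 ≤ a := by nlinarith
      exact mul_le_mul_of_nonneg_right this hM0
    have h2 : a * (M + 1) ≤ E p.1 := by
      rwa [le_div_iff₀ (by positivity)] at ha2
    nlinarith
  set u : ℝ → ℝ := fun x => E x - a ^ 2 * (deriv ρ x) ^ 2 with hu
  have hus : ContDiffOn ℝ ∞ u I := hE.sub (contDiffOn_const.mul (hdρs.pow 2))
  have hu0 : 0 < u p.1 := by simp only [hu]; linarith
  have hnhds : I ∩ {x | 0 < u x} ∈ nhds p.1 := by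
    apply Filter.inter_mem (hI.mem_nhds hp1)
    exact (hus.continuousOn.continuousAt (hI.mem_nhds hp1)).eventually (lt_mem_nhds hu0)
  obtain ⟨δ, hδ, hball⟩ := Metric.mem_nhds_iff.1 hnhds
  rw [Real.ball_eq_Ioo] at hball
  have hI' : Ioo (p.1 - δ) (p.1 + δ) ⊆ I := fun x hx => (hball hx).1
  have hupos : ∀ x ∈ Ioo (p.1 - δ) (p.1 + δ), 0 < u x := fun x hx => (hball hx).2
  obtain ⟨h, hhs, hhd⟩ := Vale.Agent.P229.exists_antideriv (w := fun x => √(u x)) hδ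
    ((hus.mono hI').sqrt (fun x hx => (hupos x hx).ne'))
  -- the y-part
  obtain ⟨η, hη, hball2⟩ := Metric.mem_nhds_iff.1 (hJ.mem_nhds hp2)
  rw [Real.ball_eq_Ioo] at hball2
  obtain ⟨θ, hθs, hθd⟩ := Vale.Agent.P229.exists_antideriv (w := fun y => w y / a) hη
    ((hw.mono hball2).div_const a)
  obtain ⟨c1, h1s, h1d⟩ := Vale.Agent.P229.exists_antideriv (w := fun y => v y * cos (θ y)) hη
    ((hv.mono hball2).mul (Real.contDiff_cos.comp_contDiffOn hθs))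
  obtain ⟨c2, h2s, h2d⟩ := Vale.Agent.P229.exists_antideriv (w := fun y => v y * sin (θ y)) hη
    ((hv.mono hball2).mul (Real.contDiff_sin.comp_contDiffOn hθs))
  have hRs : ContDiffOn ℝ ∞ (fun x => a * ρ x) (Ioo (p.1 - δ) (p.1 + δ)) :=
    contDiffOn_const.mul (hρ.mono hI')
  refine ⟨Ioo (p.1 - δ) (p.1 + δ) ×ˢ Ioo (p.2 - η) (p.2 + η), isOpen_Ioo.prod isOpen_Ioo,
    ⟨⟨by linarith, by linarith⟩, ⟨by linarith, by linarith⟩⟩,
    Vale.Agent.P229.mold (fun x => a * ρ x) h c1 c2 θ,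
    Vale.Agent.P229.mold_contDiffOn hRs hhs h1s h2s hθs, ?_⟩
  intro q hq
  obtain ⟨e1, e2, e3⟩ := Vale.Agent.P229.mold_partials isOpen_Ioo isOpen_Ioo hRs hhs h1s h2s hθs hq
    ((hρd q.1 (hI' hq.1)).const_mul a) (hhd q.1 hq.1) (h1d q.2 hq.2) (h2d q.2 hq.2) (hθd q.2 hq.2)
  refine ⟨?_, e2, ?_⟩
  · rw [e1, Real.sq_sqrt (hupos q.1 hq.1).le]
    simp only [hu]
    ring
  · rw [e3]
    congr 1
    field_simp

end Vale.Agent.Results.P229.MoldingClass
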