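import Vale.Agent.Results.P229.KillingInvariant
import Vale.Agent.Results.P229.MoldingClass
open scoped ContDiff
open Set Real

namespace Vale.Agent.Results.P229.TwoClasses

/-- The metric `g11 dx^2 + 2 g12 dx dy + g22 dy^2` is locally smoothly realizable at `p`:
some open neighbourhood `U` of `p` carries a smooth map `Φ` into Euclidean three-space whose
partial derivatives satisfy `<Φ_i, Φ_j> = g_ij` on `U`. -/
def LocallySmoothlyRealizableAt (g11 g12 g22 : ℝ × ℝ → ℝ) (p : ℝ × ℝ) : Prop :=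
  ∃ U : Set (ℝ × ℝ), IsOpen U ∧ p ∈ U ∧ ∃ Φ : ℝ × ℝ → EuclideanSpace ℝ (Fin 3),
    ContDiffOn ℝ ∞ Φ U ∧ ∀ q ∈ U,
      inner ℝ (fderiv ℝ Φ q (1, 0)) (fderiv ℝ Φ q (1, 0)) = g11 q ∧
      inner ℝ (fderiv ℝ Φ q (1, 0)) (fderiv ℝ Φ q (0, 1)) = g12 q ∧
      inner ℝ (fderiv ℝ Φ q (0, 1)) (fderiv ℝ Φ q (0, 1)) = g22 q

/-- Two classes of smooth metrics that are locally smoothly realizable at every point, with no
hypothesis on the Gaussian curvature: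
(1) positive definite metrics whose coefficients do not depend on the second coordinate;
(2) metrics `E(x) dx^2 + (v(y) + ρ(x) w(y))^2 dy^2` on a product of two open sets. -/
theorem result :
    (∀ (Ω : Set (ℝ × ℝ)) (g11 g12 g22 : ℝ × ℝ → ℝ), IsOpen Ω →
      ContDiffOn ℝ ∞ g11 Ω → ContDiffOn ℝ ∞ g12 Ω → ContDiffOn ℝ ∞ g22 Ω →
      (∀ q ∈ Ω, 0 < g11 q ∧ 0 < g11 q * g22 q - g12 q ^ 2) →
      (∀ q ∈ Ω, ∀ q' ∈ Ω, q.1 = q'.1 →
        g11 q = g11 q' ∧ g12 q = g12 q' ∧ g22 q = g22 q') →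
      ∀ p ∈ Ω, LocallySmoothlyRealizableAt g11 g12 g22 p) ∧
    (∀ (I J : Set ℝ) (E ρ v w : ℝ → ℝ), IsOpen I → IsOpen J →
      ContDiffOn ℝ ∞ E I → ContDiffOn ℝ ∞ ρ I → ContDiffOn ℝ ∞ v J → ContDiffOn ℝ ∞ w J →
      (∀ x ∈ I, 0 < E x) → (∀ x ∈ I, ∀ y ∈ J, v y + ρ x * w y ≠ 0) →
      ∀ p ∈ I ×ˢ J, LocallySmoothlyRealizableAt (fun q => E q.1) (fun _ => 0)
        (fun q => (v q.2 + ρ q.1 * w q.2) ^ 2) p) :=
  ⟨fun Ω g11 g12 g22 hΩ h11 h12 h22 hpos hinv p hp =>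
      Vale.Agent.Results.P229.KillingInvariant.result Ω hΩ g11 g12 g22 h11 h12 h22 hpos hinv p hp,
    fun I J E ρ v w hI hJ hE hρ hv hw hEpos hB p hp =>
      Vale.Agent.Results.P229.MoldingClass.result I J hI hJ E ρ v w hE hρ hv hw hEpos hB p hp⟩

end Vale.Agent.Results.P229.TwoClasses
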